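import Vale.Agent.P281.H83.HK.Defs

/-!
# P281, project T-HKT (helper83): fibres with a finite étale covering `T × H`, definitions (FROZEN)

`S : Sheets d E Γ` with `[Subsingleton Γ]`: a compact complex manifold `E` of dimension `d`. `a`
holomorphic 1-forms are the rows of the matrices `u i z : Matrix (Fin a) (Fin d) ℂ`.
-/

open Set Filter Metric MeasureTheory Vale.Agent.P272.K
open scoped Topology ContDiff ComplexConjugate ComplexOrder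

noncomputable section

namespace Vale.Agent.P281.H83.HKT

open Vale.Agent.P281.H64.TK Vale.Agent.P281.H64.TK.TS Vale.Agent.P281.H83.HK

/-! ### Pointwise algebra -/

section alg

variable {a d : ℕ}

/-- The determinant of the bordered matrix `[s, uᵀ; -u, 0]`: a constant times the square of the
coefficient of `u_1 ∧ ⋯ ∧ u_a ∧ s^n`, `d = a + 2 n`. -/
def dt (u : Matrix (Fin a) (Fin d) ℂ) (s : Matrix (Fin d) (Fin d) ℂ) : ℂ :=
  (Matrix.fromBlocks s u.transpose (-u) 0).det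

/-- The 2-form `∑ m_{jk} u_j ⊗ u_k` (`m` skew). -/
def uu (m : Matrix (Fin a) (Fin a) ℂ) (u : Matrix (Fin a) (Fin d) ℂ) :
    Matrix (Fin d) (Fin d) ℂ := u.transpose * m * u

/-- The 2-form `(i/2) u_j ∧ conj u_j`. -/
def thj (u : Matrix (Fin a) (Fin d) ℂ) (j : Fin a) : L2 d :=
  kf (Matrix.of fun k l => u j k * conj (u j l))

/-- `(x, y, θ_1, ..., θ_a, c, ..., c)`, `θ_j = (i/2) u_j ∧ conj u_j`. -/
def lst (u : Matrix (Fin a) (Fin d) ℂ) (x y c : L2 d) (i : Fin d) : L2 d :=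
  if i.val = 0 then x else if i.val = 1 then y else
    if h : i.val - 2 < a then thj u ⟨i.val - 2, h⟩ else c

/-- The density of `x ∧ y ∧ θ_1 ∧ ⋯ ∧ θ_a ∧ c^(d-a-2)`. -/
def W4 (u : Matrix (Fin a) (Fin d) ℂ) (x y c : L2 d) : ℂ := W (lst u x y c)

/-- `(θ_1, ..., θ_a, x_a, ..., x_(d-1))`. -/
def thl (u : Matrix (Fin a) (Fin d) ℂ) (x : Fin d → L2 d) (i : Fin d) : L2 d :=
  if h : i.val < a then thj u ⟨i.val, h⟩ else x i

end alg

section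

variable {d : ℕ} {E Γ : Type} [TopologicalSpace E] [Group Γ] [MulAction Γ E]

/-- The rows of `u` are closed holomorphic 1-forms. -/
structure Hol1 {a : ℕ} (S : Sheets d E Γ) (u : Fin S.N → Cm d → Matrix (Fin a) (Fin d) ℂ) :
    Prop where
  hol : ∀ i j k, DifferentiableOn ℂ (fun z => u i z j k) (ball 0 3)
  closed : ∀ i, ∀ z ∈ ball (0 : Cm d) 3, ∀ j k l,
    dd k (fun z => u i z j l) z = dd l (fun z => u i z j k) z
  change : ∀ i j, ∀ z ∈ ball (0 : Cm d) 3, ∀ z' ∈ ball (0 : Cm d) 3, ∀ θ : Cm d → Cm d,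
    AnalyticAt ℂ θ z → θ z = z' → (∀ᶠ u in 𝓝 z, S.σ i u = S.σ j (θ u)) →
      u i z = u j z' * jac θ z

/-- The rows of `u` are a basis of the closed holomorphic 1-forms, and the closed holomorphic 2-forms
are the combinations of `s` and of the `u_j ∧ u_k`; `u_1 ∧ ⋯ ∧ u_a ∧ s^n` is not identically zero. -/
structure GenU {a : ℕ} (S : Sheets d E Γ) (u : Fin S.N → Cm d → Matrix (Fin a) (Fin d) ℂ)
    (s : Fin S.N → Cm d → Matrix (Fin d) (Fin d) ℂ) : Prop where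
  one : Hol1 S u
  form : Hol2 S s
  ne : ∃ i, ∃ z ∈ ball (0 : Cm d) 3, dt (u i z) (s i z) ≠ 0
  span1 : ∀ v : Fin S.N → Cm d → Matrix (Fin 1) (Fin d) ℂ, Hol1 S v →
    ∃ c : Matrix (Fin 1) (Fin a) ℂ, ∀ i, ∀ z ∈ ball (0 : Cm d) 3, v i z = c * u i z
  span2 : ∀ s', Hol2 S s' → ∃ (c : ℂ) (m : Matrix (Fin a) (Fin a) ℂ), m.transpose = -m ∧
    ∀ i, ∀ z ∈ ball (0 : Cm d) 3, s' i z = c • s i z + uu m (u i z)

/-- `b 0, ..., b (h-1)` is a basis of the closed holomorphic 2-forms. -/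
structure Bas2 {h : ℕ} (S : Sheets d E Γ)
    (b : Fin h → Fin S.N → Cm d → Matrix (Fin d) (Fin d) ℂ) : Prop where
  form : ∀ k, Hol2 S (b k)
  indep : ∀ c : Fin h → ℂ, (∀ i, ∀ z ∈ ball (0 : Cm d) 3, ∑ k, c k • b k i z = 0) → c = 0
  span : ∀ s', Hol2 S s' → ∃ c : Fin h → ℂ, ∀ i, ∀ z ∈ ball (0 : Cm d) 3,
    s' i z = ∑ k, c k • b k i z

/-- `∫ x ∧ y ∧ θ_1 ∧ ⋯ ∧ θ_a ∧ c^(d-a-2)` over `E`. -/
def bT {a : ℕ} (S : Sheets d E Γ) (u : Fin S.N → Cm d → Matrix (Fin a) (Fin d) ℂ)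
    (x y c : Fin S.N → Cm d → L2 d) : ℂ :=
  S.int fun i z => W4 (u i z) (x i z) (y i z) (c i z)

/-- `∫ θ_1 ∧ ⋯ ∧ θ_a ∧ x_a ∧ ⋯ ∧ x_(d-1)` over `E`. -/
def tT {a : ℕ} (S : Sheets d E Γ) (u : Fin S.N → Cm d → Matrix (Fin a) (Fin d) ℂ)
    (x : Fin d → Fin S.N → Cm d → L2 d) : ℂ :=
  S.int fun i z => W (thl (u i z) fun l => x l i z)

/-- The integral `∫ |u_1 ∧ ⋯ ∧ u_a ∧ s^n|²`, up to a constant. -/
def volT {a : ℕ} (S : Sheets d E Γ) (u : Fin S.N → Cm d → Matrix (Fin a) (Fin d) ℂ)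
    (s : Fin S.N → Cm d → Matrix (Fin d) (Fin d) ℂ) : ℝ :=
  (S.int fun i z => ((‖dt (u i z) (s i z)‖ : ℝ) : ℂ)).re

/-- A marking of `H²` and an integer matrix `J` of it, such that the form
`(x, y) ↦ ∫ x ∧ y ∧ θ_1 ∧ ⋯ ∧ θ_a ∧ c^(d-a-2) / κ` is the pull-back by `J` of a nondegenerate form
`B`. -/
structure MarkT {a : ℕ} (S : Sheets d E Γ) (u : Fin S.N → Cm d → Matrix (Fin a) (Fin d) ℂ) (κ : ℝ)
    (c : Fin S.N → Cm d → L2 d) {m : ℕ} (B : Matrix (Fin m) (Fin m) ℝ) where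
  n : ℕ
  M : Mark2 S n
  J : Matrix (Fin m) (Fin n) ℤ
  J' : Matrix (Fin n) (Fin m) ℤ
  inv : J * J' = 1
  unit : IsUnit B.det
  form : ∀ k l, (bT S u (M.b k) (M.b l) c).re / κ =
    ((J.map (Int.cast : ℤ → ℝ)).transpose * B * J.map (Int.cast : ℤ → ℝ)) k l

namespace MarkT
variable {a : ℕ} {S : Sheets d E Γ} {u : Fin S.N → Cm d → Matrix (Fin a) (Fin d) ℂ} {κ : ℝ}
  {c : Fin S.N → Cm d → L2 d} {m : ℕ} {B : Matrix (Fin m) (Fin m) ℝ}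

/-- The class of a closed 2-form, in `ℂ^m`. -/
def cls (T : MarkT S u κ c B) (α : Fin S.N → Cm d → L2 d) : Fin m → ℂ :=
  (T.J.map (Int.cast : ℤ → ℂ)).mulVec (T.M.cl α)

/-- The class of a real closed 2-form. -/
def clr (T : MarkT S u κ c B) (α : Fin S.N → Cm d → L2 d) (k : Fin m) : ℝ := (T.cls α k).re

end MarkT

/-- The radical of the form `(x, y) ↦ ∫ x ∧ y ∧ θ_1 ∧ ⋯ ∧ θ_a ∧ c^(d-a-2)` is rational. -/
def RatRad {a : ℕ} (S : Sheets d E Γ) (u : Fin S.N → Cm d → Matrix (Fin a) (Fin d) ℂ)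
    (c : Fin S.N → Cm d → L2 d) : Prop :=
  ∃ (n m : ℕ) (M : Mark2 S n) (J : Matrix (Fin m) (Fin n) ℤ), ∀ x : Fin n → ℝ,
    (∀ l, ∑ k, x k * (bT S u (M.b k) (M.b l) c).re = 0) ↔ (J.map (Int.cast : ℤ → ℝ)).mulVec x = 0

section
variable {E' Γ' : Type} [TopologicalSpace E'] [Group Γ'] [MulAction Γ' E']

/-- The classes of `θ_1 ∧ ⋯ ∧ θ_a / κ` on `S` and `θ'_1 ∧ ⋯ ∧ θ'_a / κ'` on `S'` correspond. -/
def ThRel {a : ℕ} (S : Sheets d E Γ) (u : Fin S.N → Cm d → Matrix (Fin a) (Fin d) ℂ) (κ : ℝ)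
    (S' : Sheets d E' Γ') (u' : Fin S'.N → Cm d → Matrix (Fin a) (Fin d) ℂ) (κ' : ℝ) (τ : E → E') :
    Prop :=
  ∀ (x : Fin d → Fin S.N → Cm d → L2 d) (x' : Fin d → Fin S'.N → Cm d → L2 d),
    (∀ l, Cl2 S (x l)) → (∀ l, Cl2 S' (x' l)) → (∀ l, Pull2 S S' τ (x l) (x' l)) →
      (κ' : ℂ) * tT S u x = (κ : ℂ) * tT S' u' x'

end

/-- The differentials of the components of `F : E → ℂ^a`. -/
def dF {a : ℕ} (S : Sheets d E Γ) (F : E → Fin a → ℂ) :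
    Fin S.N → Cm d → Matrix (Fin a) (Fin d) ℂ :=
  fun i z => Matrix.of fun j k => dd k (fun z => F (S.σ i z) j) z

end

/-- The covolume of the lattice of the periods `c (g_0), ..., c (g_(2a-1))` in `ℂ^a = ℝ^(2a)`. -/
def cov {a : ℕ} {K : Type} [Group K] (M : H64.Mark K (a + a)) (c : K → Fin a → ℂ) : ℝ :=
  |(Matrix.of fun (k l : Fin a ⊕ Fin a) => Sum.elim
    (fun j => (c (M.g (finSumFinEquiv l)) j).re) (fun j => (c (M.g (finSumFinEquiv l)) j).im) k).det|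

/-- `u`, `s` are holomorphic families over `T'` with `GenU`. -/
structure FamU {p d a : ℕ} {E Γ : Type} [TopologicalSpace E] [Group Γ] [MulAction Γ E]
    (𝓕 : Fam p d E Γ) (T' : Set (Cm p)) (u : Fin 𝓕.N → Cm p × Cm d → Matrix (Fin a) (Fin d) ℂ)
    (s : Fin 𝓕.N → Cm p × Cm d → Matrix (Fin d) (Fin d) ℂ) : Prop where
  hol1 : ∀ i, ∀ t ∈ T', ∀ z ∈ ball (0 : Cm d) 3, ∀ j k, AnalyticAt ℂ (fun q => u i q j k) (t, z)
  hol2 : ∀ i, ∀ t ∈ T', ∀ z ∈ ball (0 : Cm d) 3, ∀ j k, AnalyticAt ℂ (fun q => s i q j k) (t, z)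
  gen : ∀ t (ht : t ∈ 𝓕.T), t ∈ T' →
    GenU (𝓕.at t ht) (fun i z => u i (t, z)) (fun i z => s i (t, z))

end Vale.Agent.P281.H83.HKT
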