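import Vale.Agent.P281.H83.HKT.Defs
import Vale.Agent.P281.H83.HK.Spec
import Vale.Agent.P281.H399.QT.Quo
import Vale.Agent.P281.H603.TE.Loc
import Vale.Agent.P281.H603.TE.Cmp

/-!
# P281, project T-HKT (helper83): fibres with a finite étale covering `T × H`, statements of the
blocks (FROZEN)
-/

open Set Filter Metric MeasureTheory Vale.Agent.P281 Vale.Agent.P281.H713 Vale.Agent.P272.K
open Vale.Agent.P281.MF Vale.Agent.P281.ISO Vale.Agent.P281.ELL Vale.Agent.P281.H713.TZ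
open Vale.Agent.P281.H64.Thin (IsThinSet)
open Vale.Agent.P281.H64.Gen (IsSmallSet)
open Vale.Agent.P281.H64 (Mark Qf)
open Vale.Agent.P281.H603.TE (sub fsub fW core)
open Vale.Agent.P281.H399.QT (Qs One1 pj quo fquo)
open scoped Topology ContDiff Manifold ComplexConjugate ComplexOrder ENNReal NNReal

noncomputable section

namespace Vale.Agent.P281.H83.HKT

open Vale.Agent.P281.H64 (IsProperFibration)
open Vale.Agent.P281.H64.TK Vale.Agent.P281.H64.TK.TS Vale.Agent.P281.H83.HK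

attribute [local instance] H603.TE.ccs

/-! ### A. Algebra -/

/-- **DET** (analogue of W4): `θ_1 ∧ ⋯ ∧ θ_a ∧ σ^n ∧ conj σ^n = κ |dt u s| dV`, `d = a + 2n`. -/
def DetTStmt : Prop :=
  ∀ a d : ℕ, a ≤ d → ∃ κ : ℝ, 0 < κ ∧ ∀ (u : Matrix (Fin a) (Fin d) ℂ)
    (s : Matrix (Fin d) (Fin d) ℂ), s.transpose = -s →
    W (thl u fun i : Fin d => if 2 * (i.val - a) < d - a then tf s else cj (tf s)) =
      ((κ * ‖dt u s‖ : ℝ) : ℂ)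

/-- **VAL**: types and signs. -/
def ValTStmt : Prop :=
  ∀ (a d : ℕ) (u : Matrix (Fin a) (Fin d) ℂ) (w s s' : Matrix (Fin d) (Fin d) ℂ), a + 2 ≤ d →
    w.PosDef → s.transpose = -s → s'.transpose = -s' →
    W4 u (tf s) (tf s') (kf w) = 0 ∧ W4 u (tf s) (kf w) (kf w) = 0 ∧
    (∃ r : ℝ, 0 ≤ r ∧ W4 u (tf s) (cj (tf s)) (kf w) = r ∧ (dt u s ≠ 0 → 0 < r)) ∧
    (∃ r : ℝ, 0 ≤ r ∧ W4 u (kf w) (kf w) (kf w) = r ∧ (dt u s ≠ 0 → 0 < r)) ∧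
    ∀ (m : Matrix (Fin a) (Fin a) ℂ) (x : Fin d → L2 d) (j : Fin d), a ≤ j.val →
      (x j = tf (uu m u) ∨ x j = cj (tf (uu m u))) → W (thl u x) = 0

/-! ### B. One manifold -/

/-- **FORMS** -/
def FormsTStmt : Prop :=
  ∀ (a d : ℕ) (E Γ : Type) [TopologicalSpace E] [T2Space E] [Group Γ] [Subsingleton Γ]
    [MulAction Γ E] [ContinuousConstSMul Γ E] (S : Sheets d E Γ)
    (u : Fin S.N → Cm d → Matrix (Fin a) (Fin d) ℂ), 0 < d → Hol1 S u →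
    (∀ j, Cl2 S (fun i z => thj (u i z) j) ∧ Real2 S (fun i z => thj (u i z) j)) ∧
    ∀ m : Matrix (Fin a) (Fin a) ℂ, m.transpose = -m → Hol2 S (fun i z => uu m (u i z))

/-- **POS** (from VAL, FORMS). -/
def PosTStmt : Prop :=
  ∀ (a d : ℕ) (E Γ : Type) [TopologicalSpace E] [T2Space E] [Group Γ] [Subsingleton Γ]
    [MulAction Γ E] [ContinuousConstSMul Γ E] (S : Sheets d E Γ)
    (w : Fin S.N → Cm d → Matrix (Fin d) (Fin d) ℂ)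
    (u : Fin S.N → Cm d → Matrix (Fin a) (Fin d) ℂ)
    (s : Fin S.N → Cm d → Matrix (Fin d) (Fin d) ℂ), a + 2 ≤ d → Kah S w → GenU S u s →
    0 < (bT S u (kw w) (kw w) (kw w)).re ∧ bT S u (ts s) (ts s) (kw w) = 0 ∧
    bT S u (ts s) (kw w) (kw w) = 0 ∧ 0 < (bT S u (ts s) (cjs (ts s)) (kw w)).re ∧
    ∀ (m : Matrix (Fin a) (Fin a) ℂ) (α : Fin S.N → Cm d → L2 d), m.transpose = -m → Cl2 S α →
      bT S u (ts fun i z => uu m (u i z)) α (kw w) = 0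

/-- **IND** (from `HIStmt` for the Kähler metrics `ε w + ∑ u_j ⊗ conj u_j`, `ε → 0`): the index of
`q(x, y) = ∫ x ∧ y ∧ θ ∧ w^(d-a-2)`. -/
def IndTStmt : Prop :=
  ∀ (a d : ℕ) (E Γ : Type) [TopologicalSpace E] [T2Space E] [PreconnectedSpace E] [Group Γ]
    [Subsingleton Γ] [MulAction Γ E] [ContinuousConstSMul Γ E] (S : Sheets d E Γ)
    (w : Fin S.N → Cm d → Matrix (Fin d) (Fin d) ℂ)
    (u : Fin S.N → Cm d → Matrix (Fin a) (Fin d) ℂ)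
    (s : Fin S.N → Cm d → Matrix (Fin d) (Fin d) ℂ) (α : Fin S.N → Cm d → L2 d), a + 2 ≤ d →
    Kah S w → GenU S u s → Cl2 S α → Real2 S α → bT S u α (kw w) (kw w) = 0 →
    bT S u α (ts s) (kw w) = 0 → (bT S u α α (kw w)).re ≤ 0

/-- **RATIO** (from HT, DET, VAL, FORMS, ...; one factor at a time, with `θ` in both integrals). -/
def RatioTStmt : Prop :=
  ∀ (a d : ℕ) (E Γ : Type) [TopologicalSpace E] [T2Space E] [PreconnectedSpace E] [Group Γ]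
    [Subsingleton Γ] [MulAction Γ E] [ContinuousConstSMul Γ E] (S : Sheets d E Γ)
    (E' Γ' : Type) [TopologicalSpace E'] [T2Space E'] [PreconnectedSpace E'] [Group Γ']
    [Subsingleton Γ'] [MulAction Γ' E'] [ContinuousConstSMul Γ' E'] (S' : Sheets d E' Γ')
    (τ : E ≃ₜ E') (w : Fin S.N → Cm d → Matrix (Fin d) (Fin d) ℂ)
    (w' : Fin S'.N → Cm d → Matrix (Fin d) (Fin d) ℂ)
    (u : Fin S.N → Cm d → Matrix (Fin a) (Fin d) ℂ)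
    (u' : Fin S'.N → Cm d → Matrix (Fin a) (Fin d) ℂ) (κ κ' : ℝ)
    (s : Fin S.N → Cm d → Matrix (Fin d) (Fin d) ℂ)
    (s' : Fin S'.N → Cm d → Matrix (Fin d) (Fin d) ℂ) (α k : Fin S.N → Cm d → L2 d), a + 2 ≤ d →
    Dif S S' τ → Kah S w → Kah S' w' → GenU S u s → GenU S' u' s' → 0 < κ → 0 < κ' →
    ThRel S u κ S' u' κ' τ → Cl2 S α → Pull2 S S' τ α (ts s') → Cl2 S k →
    Pull2 S S' τ k (kw w') → Exact S (fun i z => k i z - kw w i z) →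
    bT S u α (cjs (ts s)) (kw w) ≠ 0 →
    (volT S u s / κ) ^ 2 * ((bT S' u' (ts s') (cjs (ts s')) (kw w')).re / κ') ^ (d - a) =
      (volT S' u' s' / κ') ^ 2 * ((bT S u (ts s) (cjs (ts s)) (kw w)).re / κ) ^ (d - a)

/-- **BIL**: the form of a marking. -/
def BilTStmt : Prop :=
  ∀ (a d : ℕ) (E Γ : Type) [TopologicalSpace E] [T2Space E] [Group Γ] [Subsingleton Γ]
    [MulAction Γ E] [ContinuousConstSMul Γ E] (S : Sheets d E Γ)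
    (u : Fin S.N → Cm d → Matrix (Fin a) (Fin d) ℂ) (κ : ℝ) (c : Fin S.N → Cm d → L2 d) (m : ℕ)
    (B : Matrix (Fin m) (Fin m) ℝ) (T : MarkT S u κ c B) (α β : Fin S.N → Cm d → L2 d),
    a + 2 ≤ d → Hol1 S u → Cl2 S c → Real2 S c → Cl2 S α → Cl2 S β →
    bil B (T.cls α) (T.cls β) = bT S u α β c / κ

/-- **PER** (from IND, POS, BIL). -/
def PerTStmt : Prop :=
  ∀ (a d : ℕ) (E Γ : Type) [TopologicalSpace E] [T2Space E] [PreconnectedSpace E] [Group Γ]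
    [Subsingleton Γ] [MulAction Γ E] [ContinuousConstSMul Γ E] (S : Sheets d E Γ)
    (w : Fin S.N → Cm d → Matrix (Fin d) (Fin d) ℂ)
    (u : Fin S.N → Cm d → Matrix (Fin a) (Fin d) ℂ) (κ : ℝ)
    (s : Fin S.N → Cm d → Matrix (Fin d) (Fin d) ℂ) (m : ℕ) (B : Matrix (Fin m) (Fin m) ℝ)
    (T : MarkT S u κ (kw w) B), a + 2 ≤ d → Kah S w → GenU S u s → 0 < κ →
    IsK3Period B (T.clr (kw w)) (T.cls (ts s)) ∧
      (bil B (T.cls (ts s)) (star (T.cls (ts s)))).re =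
        (bT S u (ts s) (cjs (ts s)) (kw w)).re / κ

/-- **PULL**: the pull-back of a marking. -/
def PullTStmt : Prop :=
  ∀ (a d : ℕ) (E Γ : Type) [TopologicalSpace E] [T2Space E] [Group Γ] [Subsingleton Γ]
    [MulAction Γ E] [ContinuousConstSMul Γ E] (S : Sheets d E Γ)
    (E' Γ' : Type) [TopologicalSpace E'] [T2Space E'] [Group Γ'] [Subsingleton Γ']
    [MulAction Γ' E'] [ContinuousConstSMul Γ' E'] (S' : Sheets d E' Γ') (τ : E ≃ₜ E')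
    (w : Fin S.N → Cm d → Matrix (Fin d) (Fin d) ℂ)
    (w' : Fin S'.N → Cm d → Matrix (Fin d) (Fin d) ℂ)
    (u : Fin S.N → Cm d → Matrix (Fin a) (Fin d) ℂ)
    (u' : Fin S'.N → Cm d → Matrix (Fin a) (Fin d) ℂ) (κ κ' : ℝ) (m : ℕ)
    (B : Matrix (Fin m) (Fin m) ℝ) (T' : MarkT S' u' κ' (kw w') B)
    (k : Fin S.N → Cm d → L2 d), a + 2 ≤ d → Dif S S' τ → Kah S w → Kah S' w' → Hol1 S u →
    Hol1 S' u' → 0 < κ → 0 < κ' → ThRel S u κ S' u' κ' τ → Cl2 S k → Pull2 S S' τ k (kw w') →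
    Exact S (fun i z => k i z - kw w i z) →
    ∃ T : MarkT S u κ (kw w) B, T.clr (kw w) = T'.clr (kw w') ∧
      ∀ α α', Cl2 S α → Cl2 S' α' → Pull2 S S' τ α α' → T.cls α = T'.cls α'

/-- **TWO**: two markings of the same manifold. -/
def TwoTStmt : Prop :=
  ∀ (a d : ℕ) (E Γ : Type) [TopologicalSpace E] [T2Space E] [Group Γ] [Subsingleton Γ]
    [MulAction Γ E] [ContinuousConstSMul Γ E] (S : Sheets d E Γ)
    (u u' : Fin S.N → Cm d → Matrix (Fin a) (Fin d) ℂ) (κ κ' : ℝ)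
    (c : Fin S.N → Cm d → L2 d) (m : ℕ) (B B' : Matrix (Fin m) (Fin m) ℝ)
    (T : MarkT S u κ c B) (T' : MarkT S u' κ' c B'), a + 2 ≤ d → Hol1 S u → Hol1 S u' → 0 < κ →
    0 < κ' → ThRel S u κ S u' κ' id → Cl2 S c → Real2 S c →
    ∃ A : Matrix (Fin m) (Fin m) ℤ, IsUnit A.det ∧
      (∀ α, Cl2 S α → T'.cls α = (A.map (Int.cast : ℤ → ℂ)).mulVec (T.cls α)) ∧
      (A.map (Int.cast : ℤ → ℝ)).transpose * B' * A.map (Int.cast : ℤ → ℝ) = B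

/-- **ARITH**: a rational radical gives a marking. -/
def ArithStmt : Prop :=
  ∀ (a d : ℕ) (E Γ : Type) [TopologicalSpace E] [T2Space E] [Group Γ] [Subsingleton Γ]
    [MulAction Γ E] [ContinuousConstSMul Γ E] (S : Sheets d E Γ)
    (u : Fin S.N → Cm d → Matrix (Fin a) (Fin d) ℂ) (κ : ℝ) (c : Fin S.N → Cm d → L2 d),
    a + 2 ≤ d → Hol1 S u → Cl2 S c → Real2 S c → 0 < κ → RatRad S u c →
    ∃ (m : ℕ) (B : Matrix (Fin m) (Fin m) ℝ), Nonempty (MarkT S u κ c B)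

/-! ### C. Families -/

/-- The space of the closed holomorphic 2-forms has finite dimension. -/
def Fin2Stmt : Prop :=
  ∀ (d : ℕ) (E Γ : Type) [TopologicalSpace E] [T2Space E] [PreconnectedSpace E] [Group Γ]
    [Subsingleton Γ] [MulAction Γ E] [ContinuousConstSMul Γ E] (S : Sheets d E Γ)
    (w : Fin S.N → Cm d → Matrix (Fin d) (Fin d) ℂ), 2 ≤ d → Kah S w →
    ∃ (h : ℕ) (b : Fin h → Fin S.N → Cm d → Matrix (Fin d) (Fin d) ℂ), Bas2 S b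

/-- **HODGE** (as D1'): `h^{2,0}` is constant. -/
def HodgeConstStmt : Prop :=
  ∀ (p d h : ℕ) (E Γ : Type) [TopologicalSpace E] [T2Space E] [PreconnectedSpace E] [Group Γ]
    [Subsingleton Γ] [MulAction Γ E] [ContinuousConstSMul Γ E] (𝓕 : Fam p d E Γ)
    (W : Fin 𝓕.N → Cm p × Cm d → Matrix (Fin p ⊕ Fin d) (Fin p ⊕ Fin d) ℂ), 2 ≤ d → KFam 𝓕 W →
    ∀ t (ht : t ∈ 𝓕.T) t' (ht' : t' ∈ 𝓕.T),
      (∃ b : Fin h → Fin 𝓕.N → Cm d → Matrix (Fin d) (Fin d) ℂ, Bas2 (𝓕.at t ht) b) →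
      ∃ b : Fin h → Fin 𝓕.N → Cm d → Matrix (Fin d) (Fin d) ℂ, Bas2 (𝓕.at t' ht') b

/-- **FRAME** (as F1): holomorphic frames. -/
def FrameStmt : Prop :=
  ∀ (p d h : ℕ) (E Γ : Type) [TopologicalSpace E] [T2Space E] [PreconnectedSpace E] [Group Γ]
    [Subsingleton Γ] [MulAction Γ E] [ContinuousConstSMul Γ E] (𝓕 : Fam p d E Γ), 0 < d →
    (∀ t (ht : t ∈ 𝓕.T), ∃ b : Fin h → Fin 𝓕.N → Cm d → Matrix (Fin d) (Fin d) ℂ,
      Bas2 (𝓕.at t ht) b) → ∀ t₀ ∈ 𝓕.T,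
    ∃ (T' : Set (Cm p)) (b : Fin h → Fin 𝓕.N → Cm p × Cm d → Matrix (Fin d) (Fin d) ℂ),
      T' ⊆ 𝓕.T ∧ IsOpen T' ∧ t₀ ∈ T' ∧
      (∀ r i, ∀ t ∈ T', ∀ z ∈ ball (0 : Cm d) 3, ∀ j k, AnalyticAt ℂ (fun q => b r i q j k) (t, z)) ∧
      ∀ t (ht : t ∈ 𝓕.T), t ∈ T' → Bas2 (𝓕.at t ht) (fun r i z => b r i (t, z))

/-- **GENFAM** (from Fin2, HODGE, FRAME): `GenU` is an open condition, with a holomorphic family. -/
def GenFamStmt : Prop :=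
  ∀ (p d a : ℕ) (E Γ : Type) [TopologicalSpace E] [T2Space E] [PreconnectedSpace E] [Group Γ]
    [Subsingleton Γ] [MulAction Γ E] [ContinuousConstSMul Γ E] (𝓕 : Fam p d E Γ)
    (W : Fin 𝓕.N → Cm p × Cm d → Matrix (Fin p ⊕ Fin d) (Fin p ⊕ Fin d) ℂ) (T₀ : Set (Cm p))
    (u : Fin 𝓕.N → Cm p × Cm d → Matrix (Fin a) (Fin d) ℂ) (t₀ : Cm p) (ht₀ : t₀ ∈ 𝓕.T),
    a + 2 ≤ d → KFam 𝓕 W → T₀ ⊆ 𝓕.T → IsOpen T₀ → t₀ ∈ T₀ →
    (∀ i, ∀ t ∈ T₀, ∀ z ∈ ball (0 : Cm d) 3, ∀ j k, AnalyticAt ℂ (fun q => u i q j k) (t, z)) →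
    (∀ t (ht : t ∈ 𝓕.T), t ∈ T₀ → Hol1 (𝓕.at t ht) (fun i z => u i (t, z)) ∧
      ∀ v : Fin 𝓕.N → Cm d → Matrix (Fin 1) (Fin d) ℂ, Hol1 (𝓕.at t ht) v →
        ∃ c : Matrix (Fin 1) (Fin a) ℂ, ∀ i, ∀ z ∈ ball (0 : Cm d) 3, v i z = c * u i (t, z)) →
    (∃ s, GenU (𝓕.at t₀ ht₀) (fun i z => u i (t₀, z)) s) →
    ∃ (T' : Set (Cm p)) (s : Fin 𝓕.N → Cm p × Cm d → Matrix (Fin d) (Fin d) ℂ),
      T' ⊆ T₀ ∧ IsOpen T' ∧ t₀ ∈ T' ∧ FamU 𝓕 T' u s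

/-- **HOLP** (`HolP2Stmt`, for any holomorphic family of closed holomorphic 2-forms). -/
def HolPTStmt : Prop :=
  ∀ (p d : ℕ) (E Γ : Type) [TopologicalSpace E] [T2Space E] [Group Γ]
    [Subsingleton Γ] [MulAction Γ E] [ContinuousConstSMul Γ E] (𝓕 : Fam p d E Γ)
    (T' : Set (Cm p)) (hT' : T' ⊆ 𝓕.T)
    (s : Fin 𝓕.N → Cm p × Cm d → Matrix (Fin d) (Fin d) ℂ) (t₀ : Cm p)
    (ht₀ : t₀ ∈ T') (n : ℕ) (M : Mark2 (𝓕.at t₀ (hT' ht₀)) n)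
    (α : Cm p → Fin (𝓕.at t₀ (hT' ht₀)).N → Cm d → L2 d), 0 < d → IsOpen T' →
    (∀ i, ∀ t ∈ T', ∀ z ∈ ball (0 : Cm d) 3, ∀ j k, AnalyticAt ℂ (fun q => s i q j k) (t, z)) →
    (∀ t (ht : t ∈ T'), Hol2 (𝓕.at t (hT' ht)) (fun i z => s i (t, z))) →
    (∀ t (ht : t ∈ T'), Cl2 (𝓕.at t₀ (hT' ht₀)) (α t) ∧
      Pull2 (𝓕.at t₀ (hT' ht₀)) (𝓕.at t (hT' ht)) id (α t) (ts fun i z => s i (t, z))) →
    ∀ k, AnalyticAt ℂ (fun t => M.cl (α t) k) t₀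

/-- **BAS**: additive functions on `E` and closed holomorphic 1-forms on `E / K`. -/
def BasTStmt : Prop :=
  ∀ (d a : ℕ) (E K : Type) [TopologicalSpace E] [T2Space E] [SimplyConnectedSpace E] [Group K]
    [MulAction K E] [ContinuousConstSMul K E] (S : Sheets d E K)
    (w : Fin S.N → Cm d → Matrix (Fin d) (Fin d) ℂ) (M : Mark K (a + a)) (F : E → Fin a → ℂ)
    (c : K → Fin a → ℂ), 0 < d → Kah S w → IsBas S F c →
    Hol1 (quo S) (dF S F) ∧ (∀ v : Fin S.N → Cm d → Matrix (Fin 1) (Fin d) ℂ, Hol1 (quo S) v →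
      ∃ c : Matrix (Fin 1) (Fin a) ℂ, ∀ i, ∀ z ∈ ball (0 : Cm d) 3, v i z = c * dF S F i z) ∧
    0 < cov M c

/-- **TH1**: the class of `θ_1 ∧ ⋯ ∧ θ_a / κ` is locally constant in a family. -/
def ThConstStmt : Prop :=
  ∀ (p d a : ℕ) (E K : Type) [TopologicalSpace E] [T2Space E] [SimplyConnectedSpace E] [Group K]
    [MulAction K E] [ContinuousConstSMul K E] (𝓕 : Fam p d E K)
    (W : Fin 𝓕.N → Cm p × Cm d → Matrix (Fin p ⊕ Fin d) (Fin p ⊕ Fin d) ℂ) (M : Mark K (a + a))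
    (T' : Set (Cm p)) (hT' : T' ⊆ 𝓕.T) (F : Cm p → E → Fin a → ℂ) (c : Cm p → K → Fin a → ℂ)
    (t₀ : Cm p) (ht₀ : t₀ ∈ T'), a + 2 ≤ d → KFam 𝓕 W → IsOpen T' →
    (∀ t (ht : t ∈ T'), IsBas (𝓕.at t (hT' ht)) (F t) (c t)) →
    (∀ γ j, ∀ t ∈ T', AnalyticAt ℂ (fun s => c s γ j) t) →
    ∀ᶠ t in 𝓝 t₀, ∀ ht : t ∈ T', ThRel (quo (𝓕.at t₀ (hT' ht₀))) (dF (𝓕.at t₀ (hT' ht₀)) (F t₀))
      (cov M (c t₀)) (quo (𝓕.at t (hT' ht))) (dF (𝓕.at t (hT' ht)) (F t)) (cov M (c t)) id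

/-- **TH2**: the same, for an isomorphism. -/
def ThCmpStmt : Prop :=
  ∀ (d a : ℕ) (E K : Type) [TopologicalSpace E] [T2Space E] [SimplyConnectedSpace E] [Group K]
    [MulAction K E] [ContinuousConstSMul K E] (S : Sheets d E K)
    (E' K' : Type) [TopologicalSpace E'] [T2Space E'] [SimplyConnectedSpace E'] [Group K']
    [MulAction K' E'] [ContinuousConstSMul K' E'] (S' : Sheets d E' K')
    (w : Fin S.N → Cm d → Matrix (Fin d) (Fin d) ℂ)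
    (w' : Fin S'.N → Cm d → Matrix (Fin d) (Fin d) ℂ) (τ : E ≃ₜ E') (ρ : K ≃* K')
    (M : Mark K (a + a)) (M' : Mark K' (a + a)) (F : E → Fin a → ℂ) (c : K → Fin a → ℂ)
    (F' : E' → Fin a → ℂ) (c' : K' → Fin a → ℂ) (τ' : Qs K E ≃ₜ Qs K' E'), a + 2 ≤ d → Kah S w →
    Kah S' w' → H603.TE.Cmp S w S' w' τ ρ → (∀ e, τ' (pj K e) = pj K' (τ e)) →
    IsBas S F c → IsBas S' F' c' →
    ThRel (quo S) (dF S F) (cov M c) (quo S') (dF S' F') (cov M' c') τ'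

/-! ### D. Geometry -/

/-- In some model of `f` at `y`: `GenU` on the covering of the fibre given by `core Γ m`. -/
def NDegU (p d a m : ℕ) {Z Y : Type} [TopologicalSpace Z] [ChartedSpace (Cm (p + d)) Z]
    [TopologicalSpace Y] [ChartedSpace (Cm p) Y] (f : Z → Y) (y : Y) : Prop :=
  ∃ (E Γ : Type) (_ : TopologicalSpace E) (_ : T2Space E) (_ : SimplyConnectedSpace E)
    (_ : Group Γ) (_ : MulAction Γ E) (_ : ContinuousConstSMul Γ E)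
    (_ : (core Γ m).FiniteIndex) (𝓕 : Fam p d E Γ)
    (q : Cm p → E → Z) (χ : OpenPartialHomeomorph Y (Cm p)) (t : Cm p) (ht : t ∈ 𝓕.T),
    Model (n := p + d) f 𝓕 χ q ∧ χ.symm t = y ∧ ∃ (F : E → Fin a → ℂ) (c : core Γ m → Fin a → ℂ),
      IsBas (sub (𝓕.at t ht) (core Γ m)) F c ∧
      ∃ s, GenU (quo (sub (𝓕.at t ht) (core Γ m))) (dF (sub (𝓕.at t ht) (core Γ m)) F) s

/-- The same, with the index of `core Γ m`, and the rationality of the radical. -/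
def NDegT (p d a m N : ℕ) {Z Y : Type} [TopologicalSpace Z] [ChartedSpace (Cm (p + d)) Z]
    [TopologicalSpace Y] [ChartedSpace (Cm p) Y] (f : Z → Y) (y : Y) : Prop :=
  ∃ (E Γ : Type) (_ : TopologicalSpace E) (_ : T2Space E) (_ : SimplyConnectedSpace E)
    (_ : Group Γ) (_ : MulAction Γ E) (_ : ContinuousConstSMul Γ E)
    (_ : (core Γ m).FiniteIndex) (𝓕 : Fam p d E Γ)
    (q : Cm p → E → Z) (χ : OpenPartialHomeomorph Y (Cm p)) (t : Cm p) (ht : t ∈ 𝓕.T),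
    Model (n := p + d) f 𝓕 χ q ∧ χ.symm t = y ∧ (core Γ m).index = N ∧
      Nonempty (Mark (core Γ m) (a + a)) ∧ ∃ (F : E → Fin a → ℂ) (c : core Γ m → Fin a → ℂ),
      IsBas (sub (𝓕.at t ht) (core Γ m)) F c ∧
      (∃ s, GenU (quo (sub (𝓕.at t ht) (core Γ m))) (dF (sub (𝓕.at t ht) (core Γ m)) F) s) ∧
      ∀ w, Kah (sub (𝓕.at t ht) (core Γ m)) w →
        RatRad (quo (sub (𝓕.at t ht) (core Γ m))) (dF (sub (𝓕.at t ht) (core Γ m)) F) (kw w)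

section
variable {p d : ℕ} {Z Y : Type} [TopologicalSpace Z] [ChartedSpace (Cm (p + d)) Z]
  [TopologicalSpace Y] [ChartedSpace (Cm p) Y]

/-- Local data over an open set of `Y`. -/
structure LocX (f : Z → Y)
    (w : Chart (p + d) Z → Cm (p + d) → Matrix (Fin (p + d)) (Fin (p + d)) ℂ) (a m N : ℕ)
    (B₁ : Matrix (Fin (a + a)) (Fin (a + a)) ℝ) {k : ℕ} (B : Matrix (Fin k) (Fin k) ℝ)
    (v : Fin k → ℝ) (R : ℝ) where
  E : Type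
  Γ : Type
  [tE : TopologicalSpace E]
  [t2 : T2Space E]
  [sc : SimplyConnectedSpace E]
  [gr : Group Γ]
  [act : MulAction Γ E]
  [ct : ContinuousConstSMul Γ E]
  [fin : (core Γ m).FiniteIndex]
  𝓕 : Fam p d E Γ
  q : Cm p → E → Z
  χ : OpenPartialHomeomorph Y (Cm p)
  model : Model (n := p + d) f 𝓕 χ q
  W : Fin 𝓕.N → Cm p × Cm d → Matrix (Fin p ⊕ Fin d) (Fin p ⊕ Fin d) ℂ
  pull : IsPull w 𝓕 q W
  kfam : KFam 𝓕 W
  index : (core Γ m).index = N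
  M : Mark (core Γ m) (a + a)
  form : ∀ t (ht : t ∈ 𝓕.T), HasForm (sub (𝓕.at t ht) (core Γ m)) (fW (core Γ m) W t) M B₁
  T' : Set (Cm p)
  hT' : T' ⊆ 𝓕.T
  isOpen' : IsOpen T'
  F : Cm p → E → Fin a → ℂ
  c : Cm p → core Γ m → Fin a → ℂ
  bas : ∀ t (ht : t ∈ T'), IsBas (sub (𝓕.at t (hT' ht)) (core Γ m)) (F t) (c t)
  holF : ∀ i, ∀ t ∈ T', ∀ z ∈ ball (0 : Cm d) 3, ∀ j, AnalyticAt ℂ
    (fun q : Cm p × Cm d => F q.1 ((fsub 𝓕 (core Γ m)).σ i q.1 q.2) j) (t, z)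
  holc : ∀ γ j, ∀ t ∈ T', AnalyticAt ℂ (fun s => c s γ j) t
  s : Fin (fsub 𝓕 (core Γ m)).N → Cm p × Cm d → Matrix (Fin d) (Fin d) ℂ
  hols : ∀ i, ∀ t ∈ T', ∀ z ∈ ball (0 : Cm d) 3, ∀ j k, AnalyticAt ℂ (fun q => s i q j k) (t, z)
  gen : ∀ t (ht : t ∈ T'), GenU (quo (sub (𝓕.at t (hT' ht)) (core Γ m)))
    (dF (sub (𝓕.at t (hT' ht)) (core Γ m)) (F t)) (fun i z => s i (t, z))
  mt : ∀ t (ht : t ∈ T'), MarkT (quo (sub (𝓕.at t (hT' ht)) (core Γ m)))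
    (dF (sub (𝓕.at t (hT' ht)) (core Γ m)) (F t)) (cov M (c t)) (kw (fW (core Γ m) W t)) B
  kah : ∀ t (ht : t ∈ T'), (mt t ht).clr (kw (fW (core Γ m) W t)) = v
  P : Cm p → Fin k → ℂ
  per : ∀ t (ht : t ∈ T'), P t = (mt t ht).cls (ts fun i z => s i (t, z))
  holP : ∀ k, ∀ t ∈ T', AnalyticAt ℂ (fun t => P t k) t
  nrm : ∀ t (ht : t ∈ T'),
    (volT (quo (sub (𝓕.at t (hT' ht)) (core Γ m))) (dF (sub (𝓕.at t (hT' ht)) (core Γ m)) (F t))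
      (fun i z => s i (t, z)) / cov M (c t)) ^ 2 = R * (bil B (P t) (star (P t))).re ^ (d - a)

attribute [instance] LocX.tE LocX.t2 LocX.sc LocX.gr LocX.act LocX.ct LocX.fin

end

/-- **BAD** (`DegEStmt` for `NDegU`; from Fin2, HODGE, FRAME, GENFAM, BAS, D): the bad fibres are in a
small set. -/
def BadTStmt : Prop :=
  ∀ (p d a m : ℕ) (Z Y : Type) [TopologicalSpace Z] [T2Space Z] [CompactSpace Z]
    [ChartedSpace (Cm (p + d)) Z] [IsManifold 𝓘(ℂ, Cm (p + d)) ω Z] [TopologicalSpace Y]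
    [T2Space Y] [ChartedSpace (Cm p) Y] [IsManifold 𝓘(ℂ, Cm p) ω Y] (f : Z → Y) (S : Set Y)
    (w : Chart (p + d) Z → Cm (p + d) → Matrix (Fin (p + d)) (Fin (p + d)) ℂ),
    a + 2 ≤ d → ContMDiff 𝓘(ℂ, Cm (p + d)) 𝓘(ℂ, Cm p) ω f → Function.Surjective f →
    IsProperFibration (n := p + d) (p := p) f S → IsSmallSet (Cm p) S → IsPreconnected Sᶜ →
    IsKahler w → (∃ y ∉ S, NDegU p d a m f y) →
    ∃ S' : Set Y, S ⊆ S' ∧ IsSmallSet (Cm p) S' ∧ ∀ y ∉ S', NDegU p d a m f y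

/-- **GLOB** (as `Glob2Stmt`). -/
def GlobTStmt : Prop :=
  ∀ (p d a m N : ℕ) (Z Y : Type) [TopologicalSpace Z] [T2Space Z] [ChartedSpace (Cm (p + d)) Z]
    [IsManifold 𝓘(ℂ, Cm (p + d)) ω Z] [TopologicalSpace Y] [T2Space Y] [ChartedSpace (Cm p) Y]
    [IsManifold 𝓘(ℂ, Cm p) ω Y] (f : Z → Y) (S : Set Y)
    (w : Chart (p + d) Z → Cm (p + d) → Matrix (Fin (p + d)) (Fin (p + d)) ℂ) (y₁ : Y),
    a + 2 ≤ d → ContMDiff 𝓘(ℂ, Cm (p + d)) 𝓘(ℂ, Cm p) ω f →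
    IsProperFibration (n := p + d) (p := p) f S → IsPreconnected Sᶜ → IsKahler w →
    y₁ ∉ S → NDegT p d a m N f y₁ → (∀ y ∉ S, NDegU p d a m f y) →
    ∃ (B₁ : Matrix (Fin (a + a)) (Fin (a + a)) ℝ) (k : ℕ) (B : Matrix (Fin k) (Fin k) ℝ)
      (v : Fin k → ℝ) (R : ℝ), 0 < R ∧ ∀ y₀ ∉ S,
      ∃ L : LocX (p := p) (d := d) f w a m N B₁ B v R, y₀ ∈ L.χ.source ∧ L.χ y₀ ∈ L.T' ∧
        ∀ t ∈ L.T', L.χ.symm t ∉ S

/-- **FORM** (as `Form2Stmt`): the `2 N`-canonical forms `dt(u, s) ^ N`. -/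
def FormTStmt : Prop :=
  ∀ (p d a m N : ℕ) (Z Y : Type) [TopologicalSpace Z] [T2Space Z] [ChartedSpace (Cm (p + d)) Z]
    [IsManifold 𝓘(ℂ, Cm (p + d)) ω Z] [TopologicalSpace Y] [T2Space Y] [ChartedSpace (Cm p) Y]
    [IsManifold 𝓘(ℂ, Cm p) ω Y] (f : Z → Y) (S : Set Y)
    (w : Chart (p + d) Z → Cm (p + d) → Matrix (Fin (p + d)) (Fin (p + d)) ℂ)
    (B₁ : Matrix (Fin (a + a)) (Fin (a + a)) ℝ) (k : ℕ) (B : Matrix (Fin k) (Fin k) ℝ)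
    (v : Fin k → ℝ) (R : ℝ), 0 < N → a + 2 ≤ d → 0 < R →
    ContMDiff 𝓘(ℂ, Cm (p + d)) 𝓘(ℂ, Cm p) ω f →
    IsProperFibration (n := p + d) (p := p) f S → IsKahler w →
    (∀ y₀ ∉ S, ∃ L : LocX (p := p) (d := d) f w a m N B₁ B v R, y₀ ∈ L.χ.source ∧ L.χ y₀ ∈ L.T' ∧
      ∀ t ∈ L.T', L.χ.symm t ∉ S) →
    ∃ (ι : Type) (U : ι → Set Y)
      (π : ι → Y → ((Fin (a + a) → ℝ) ≃L[ℝ] EuclideanSpace ℂ (Fin a)))
      (P : ι → Y → Fin 1 → Fin k → ℂ) (η : ι → Fin 1 → Z → (Fin d → Cm (p + d)) → ℂ),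
      IsPeriodForms (Cm (p + d)) (Cm p) f S 0 (2 * N) (fun _ => 0) (Qf B₁) (2 * N) (fun _ => B)
        (fun _ => v) (fun _ => (d - a) * N) U π P η

section
variable (d : ℕ) (F : Type) [TopologicalSpace F] [ChartedSpace (Cm d) F]

/-- `F` is `T × H`, `T = ℂ^a / Λ` a complex torus (`F` is compact), `H` compact and simply connected
with `Sympl`: `g : ℂ^a × H → F` is the covering. -/
def IsTH : Prop :=
  ∃ (a h : ℕ) (H : Type) (_ : TopologicalSpace H) (_ : ChartedSpace (Cm h) H)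
    (Λ : AddSubgroup (Cm a)) (g : Cm a × H → F), a + h = d ∧ 2 ≤ h ∧ T2Space H ∧ CompactSpace H ∧
    SimplyConnectedSpace H ∧ IsManifold 𝓘(ℂ, Cm h) ω H ∧ Sympl h H ∧ Function.Surjective g ∧
    (∀ x, ContMDiffAt (𝓘(ℂ, Cm a).prod 𝓘(ℂ, Cm h)) 𝓘(ℂ, Cm d) ω g x ∧
      Function.Injective (mfderiv (𝓘(ℂ, Cm a).prod 𝓘(ℂ, Cm h)) 𝓘(ℂ, Cm d) g x)) ∧
    ∀ x x', g x = g x' ↔ x'.1 - x.1 ∈ Λ ∧ x.2 = x'.2

end

/-- **FIB** -/
def FibTStmt : Prop :=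
  ∀ (p d : ℕ) (Z Y : Type) [TopologicalSpace Z] [T2Space Z] [ChartedSpace (Cm (p + d)) Z]
    [IsManifold 𝓘(ℂ, Cm (p + d)) ω Z] [TopologicalSpace Y] [T2Space Y] [ChartedSpace (Cm p) Y]
    [IsManifold 𝓘(ℂ, Cm p) ω Y] (f : Z → Y) (S : Set Y)
    (w : Chart (p + d) Z → Cm (p + d) → Matrix (Fin (p + d)) (Fin (p + d)) ℂ), 0 < d →
    ContMDiff 𝓘(ℂ, Cm (p + d)) 𝓘(ℂ, Cm p) ω f →
    IsProperFibration (n := p + d) (p := p) f S → IsKahler w →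
    ∀ y ∉ S, ∀ (F : Type) [TopologicalSpace F] [T2Space F] [ChartedSpace (Cm d) F] (i : F → Z),
      H511.Surf.IsFibre (Cm (p + d)) (Cm d) f y i → IsTH d F →
      ∃ a m N, a + 2 ≤ d ∧ 0 < N ∧ NDegT p d a m N f y

/-- **T-HKT**, the goal (helper152 / helper225: the same for `X` in Fujiki's class). -/
def THKTStmt : Prop :=
  ∀ (p d : ℕ) (X Y : Type) [TopologicalSpace X] [ChartedSpace (Cm (p + d)) X]
    [TopologicalSpace Y] [ChartedSpace (Cm p) Y] (f : X → Y) (Δ : Set X → ℝ), 0 < d →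
    H511.Surf.IsFibration (Cm (p + d)) (Cm p) f Δ →
    (∃ w : Chart (p + d) X → Cm (p + d) → Matrix (Fin (p + d)) (Fin (p + d)) ℂ, IsKahler w) →
    ∃ H : ℕ → Set Y, (∀ k, IsThinSet (Cm p) (H k)) ∧ ∀ y, (∀ k, y ∉ H k) →
      ∀ (F : Type) [TopologicalSpace F] [T2Space F] [ChartedSpace (Cm d) F] (i : F → X),
        H511.Surf.IsFibre (Cm (p + d)) (Cm d) f y i → IsTH d F →
        TZ.S.kodF (p + d) p Δ (id : X → X) f ≤ TZ.S.kodX (Cm (p + d)) Δ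

end Vale.Agent.P281.H83.HKT
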