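import Vale.Agent.P281.H83.HKT.Plug2
import Vale.Agent.P281.H511.HKT.FibB
import Vale.Agent.P281.H842.HKT.RR

/-!
# P281, project T-HKT: fibres with a finite étale covering `T × H`, the theorem
-/

open Vale.Agent.P281 Vale.Agent.P281.H64 Vale.Agent.P281.H64.TK.TS Vale.Agent.P281.H83.HK

noncomputable section

namespace Vale.Agent.P281.H83.HKT

theorem bPer2 : Per2Stmt := H594.HK.per2 aHI aForms aPos

theorem bFib : FibTStmt := H511.HKT.fibT_of TK.inputs bBas (H842.HKT.rr aMark bPer2 aForms)

/-- **T-HKT.** -/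
theorem thkt : THKTStmt := thkt_fib bFib

end Vale.Agent.P281.H83.HKT
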