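import Vale.Agent.P281.H83.HKT.Spec
import Vale.Agent.P281.H64.TS.Core

/-!
# P281, project T-HKT (helper83): the assembly
-/

open Set Filter Metric MeasureTheory Vale.Agent.P281 Vale.Agent.P281.H713
open Vale.Agent.P272.K (Chart IsKahler IsHermitian)
open Vale.Agent.P281.MF Vale.Agent.P281.ISO
open Vale.Agent.P281.H713.TZ Vale.Agent.P281.H64
open Vale.Agent.P281.H64.Gen
open Vale.Agent.P281.H64.Thin (IsThinSet)
open Vale.Agent.P281.H64.TU (Tame KTame RelFormT HasFormsT)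
open scoped Topology ContDiff Manifold

set_option linter.all false

noncomputable section

namespace Vale.Agent.P281.H83.HKT

open Vale.Agent.P281.H64.TK Vale.Agent.P281.H64.TK.TS Vale.Agent.P281.H83.HK

section
variable {p d a m N : ℕ} {Z Y : Type} [TopologicalSpace Z] [ChartedSpace (H64.Cm (p + d)) Z]
  [TopologicalSpace Y] [ChartedSpace (H64.Cm p) Y] {f : Z → Y} {y : Y}

theorem NDegT.toU (h : NDegT p d a m N f y) : NDegU p d a m f y := by
  obtain ⟨E, Γ, i₁, i₂, i₃, i₄, i₅, i₆, i₇, 𝓕, q, χ, t, ht, h1, h2, h3, h4, F, c, h5, h6, h7⟩ := h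
  exact ⟨E, Γ, i₁, i₂, i₃, i₄, i₅, i₆, i₇, 𝓕, q, χ, t, ht, h1, h2, F, c, h5, h6⟩

end

/-- a countable union of small sets: thin sets -/
theorem small_iUnion {p : ℕ} {Y : Type} [TopologicalSpace Y] [ChartedSpace (H64.Cm p) Y]
    (T : ℕ → Set Y) (hT : ∀ k, IsSmallSet (H64.Cm p) (T k)) :
    ∃ H : ℕ → Set Y, (∀ k, IsThinSet (H64.Cm p) (H k)) ∧ ∀ k, T k ⊆ ⋃ j, H j := by
  choose H hH hsub using fun k => (hT k).2
  refine ⟨fun k => H (Nat.unpair k).1 (Nat.unpair k).2, fun k => hH _ _, fun k y hy => ?_⟩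
  obtain ⟨j, hj⟩ := mem_iUnion.1 (hsub k hy)
  refine mem_iUnion.2 ⟨Nat.pair k j, ?_⟩
  simpa using hj

/-- the assembly -/
theorem thkt_of (glob : GlobTStmt) (form : FormTStmt) (fib : FibTStmt) (bad : BadTStmt)
    (crit : CritStmt) (compl : ComplStmt) (lift : TU.LiftTStmt) (tame : TU.TameOKStmt) :
    THKTStmt := by
  classical
  intro p d X Y _ _ _ _ f Δ hd h hw
  obtain ⟨w, hw⟩ := hw
  have : T2Space X := h.hausdorff.1
  have : T2Space Y := h.hausdorff.2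
  have : CompactSpace X := h.compact
  have : ConnectedSpace X := h.connected
  have : IsManifold 𝓘(ℂ, H64.Cm (p + d)) ω X := h.manifold.1
  have : IsManifold 𝓘(ℂ, H64.Cm p) ω Y := h.manifold.2
  have hΔ0 : ∀ D, 0 ≤ Δ D := fun D => (snc01 (JB.snc h.snc) D).1
  have hsurj : Function.Surjective f := fun y => (h.fibres y).nonempty
  have : PreconnectedSpace Y := by
    rw [preconnectedSpace_iff_univ, ← hsurj.range_eq]
    exact isPreconnected_range h.hol.continuous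
  obtain ⟨S, hS, hP⟩ := crit (p + d) p X Y f h.hol h.fibres
  have hP₁ := hP S subset_rfl hS.1
  have hpre := (compl p Y S hS).2
  -- the bad sets
  have hT : ∀ a m : ℕ, ∃ T : Set Y, S ⊆ T ∧ IsSmallSet (H64.Cm p) T ∧
      ((a + 2 ≤ d ∧ ∃ y ∉ S, NDegU p d a m f y) → ∀ y ∉ T, NDegU p d a m f y) := by
    intro a m
    by_cases h1 : a + 2 ≤ d ∧ ∃ y ∉ S, NDegU p d a m f y
    · obtain ⟨T, hST, hT, hTN⟩ := bad p d a m X Y f S w h1.1 h.hol hsurj hP₁ hS hpre hw h1.2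
      exact ⟨T, hST, hT, fun _ => hTN⟩
    · exact ⟨S, subset_rfl, hS, fun h2 => absurd h2 h1⟩
  choose T hST hT hTN using hT
  obtain ⟨H, hH, hsub⟩ := small_iUnion (p := p)
    (fun k => T (Nat.unpair k).1 (Nat.unpair k).2) (fun k => hT _ _)
  refine ⟨H, hH, fun y hy F _ _ _ i hi hpg => ?_⟩
  have hyT : ∀ a m, y ∉ T a m := by
    intro a m h2
    have h3 : y ∈ T (Nat.unpair (Nat.pair a m)).1 (Nat.unpair (Nat.pair a m)).2 := by
      simpa using h2
    obtain ⟨k, hk⟩ := mem_iUnion.1 (hsub (Nat.pair a m) h3)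
    exact hy k hk
  have hyS : y ∉ S := fun h2 => hyT 0 0 (hST 0 0 h2)
  obtain ⟨a, m, N, had, hN, hND⟩ := fib p d X Y f S w hd h.hol hP₁ hw y hyS F i hi hpg
  have hall := hTN a m ⟨had, y, hyS, hND.toU⟩
  have hP₂ := hP (T a m) (hST a m) (hT a m).1
  have hpre₂ := (compl p Y (T a m) (hT a m)).2
  obtain ⟨B₁, k, B, v, R, hR, hL⟩ := glob p d a m N X Y f (T a m) w y had h.hol hP₂ hpre₂ hw
    (hyT a m) hND hall
  obtain ⟨ι, U, π, P, η, hC⟩ := form p d a m N X Y f (T a m) w B₁ k B v R hN had hR h.hol hP₂ hw hL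
  let e₀ : H64.Cm (p + d) ≃L[ℂ] (H64.Cm p × H64.Cm d) :=
    ContinuousLinearEquiv.ofFinrankEq (by simp)
  have h1 : (((0 : ℕ) : ℕ∞) : WithBot ℕ∞) + TZ.S.kodF (p + d) p Δ (id : X → X) f ≤
      TZ.S.kodX (H64.Cm (p + d)) Δ := by
    refine H303.UF.first_of fun j₂ h₂ => ?_
    refine lift (p + d) p X Y (H64.Cm d) (KTame w) f (T a m) e₀ Δ 0 j₂
      (tame (p + d) d X w hw.toIsHermitian) h.hol (hT a m) hP₂.submersive h.snc
      (fun y hy => hasFormsT_of ?_) h₂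
    refine hasForms_periods hC (fun x => h.hol x) e₀ (Nat.mul_pos two_pos hN) ?_ ?_ ?_ hy
    · simp
    · intro D hD
      exact absurd rfl hD
    · intro D
      simpa using mul_nonneg (Nat.cast_nonneg (2 * N)) (hΔ0 D)
  simpa using h1

end Vale.Agent.P281.H83.HKT
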