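import Vale.Agent.P281.H83.HKT.Spec
import Vale.Agent.P281.H702.Z.Br2

/-!
# P281, project T-HKT (helper83): products of tori and symplectic manifolds, in the letters of H64/Z
-/

open Set Vale.Agent.P281 Vale.Agent.P281.H713.TZ.S Vale.Agent.P281.H64.Z
open scoped Manifold ContDiff Topology

noncomputable section

namespace Vale.Agent.P281.H83.HKT.Z

/-- `F` is a product `T × H`, `T = ℂ^a / Λ` a complex torus (if `F` is compact), `H` a compact simply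
connected symplectic manifold (see `Sympl`): `g : ℂ^a × H → F` is the covering. -/
def TorSympl (d : ℕ) (F : Type) [TopologicalSpace F] [Man d F] : Prop :=
  ∃ (a h : ℕ) (H : Type) (_ : TopologicalSpace H) (_ : Man h H) (Λ : AddSubgroup (Cm a))
    (g : Cm a × H → F), a + h = d ∧ 2 ≤ h ∧ T2Space H ∧ CompactSpace H ∧ SimplyConnectedSpace H ∧
    IsManifold 𝓘(ℂ, Cm h) ω H ∧ Sympl h H ∧ Function.Surjective g ∧
    (∀ x, ContMDiffAt (𝓘(ℂ, Cm a).prod 𝓘(ℂ, Cm h)) 𝓘(ℂ, Cm d) ω g x ∧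
      Function.Injective (mfderiv (𝓘(ℂ, Cm a).prod 𝓘(ℂ, Cm h)) 𝓘(ℂ, Cm d) g x)) ∧
    ∀ x x', g x = g x' ↔ x'.1 - x.1 ∈ Λ ∧ x.2 = x'.2

theorem isTH_of {d : ℕ} {F : Type} [TopologicalSpace F] [Man d F] (h : TorSympl d F) :
    IsTH d F := by
  obtain ⟨a, n, H, i₁, i₂, Λ, g, h1, h2, h3, h4, h5, h6, h7, h8⟩ := h
  exact ⟨a, n, H, i₁, i₂, Λ, g, h1, h2, h3, h4, h5, h6, H702.Z.sympl_hk h7, h8⟩

end Vale.Agent.P281.H83.HKT.Z
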