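import Vale.Agent.P281.H83.HKT.Spec
import Vale.Agent.P281.H22.HKT.Alg
import Vale.Agent.P281.H191.HKT.Th

/-!
# P281, project T-HKT (helper83): the forms `θ_j` and `u_j ∧ u_k`
-/

open Vale.Agent.P281 Vale.Agent.P281.H64.TK.TS

noncomputable section

namespace Vale.Agent.P281.H83.HKT

theorem formsT : FormsTStmt := fun _ _ _ _ _ _ _ _ _ _ S u _ hu =>
  ⟨fun j => ⟨H191.HKT.cl2_thj hu j, H191.HKT.real_thj u j⟩, fun _ hm => H22.HKT.hol2_uu hu hm⟩

end Vale.Agent.P281.H83.HKT
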