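import Vale.Agent.P281.H83.HKT.Core
import Vale.Agent.P281.H83.HKT.FormsT
import Vale.Agent.P281.H83.HK.Fin
import Vale.Agent.P281.H125.KH.C2
import Vale.Agent.P281.H751.HKT.BasT
import Vale.Agent.P281.H751.HKT.TwoT
import Vale.Agent.P281.H191.HKT.Mk
import Vale.Agent.P281.H834.HKT.Hodge
import Vale.Agent.P281.H834.HKT.ThC
import Vale.Agent.P281.H747.HKT.Fin
import Vale.Agent.P281.H747.HKT.PosT
import Vale.Agent.P281.H747.HKT.ThCmp
import Vale.Agent.P281.H864.HKT.Ratio
import Vale.Agent.P281.H594.HKT.PerT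
import Vale.Agent.P281.H594.HKT.Frame
import Vale.Agent.P281.H594.HKT.GenFam
import Vale.Agent.P281.H22.HKT.Bad

/-!
# P281, project T-HKT (helper83): the plug, blocks A - C
-/

open Vale.Agent.P281 Vale.Agent.P281.H64 Vale.Agent.P281.H64.TK.TS Vale.Agent.P281.H83.HK

noncomputable section

namespace Vale.Agent.P281.H83.HKT

theorem bBas : BasTStmt := H751.HKT.bas_of H125.KH.c2

theorem bFin2 : Fin2Stmt := H834.HKT.fin2 aMark aForms aPos aHI

theorem bHodge : HodgeConstStmt :=
  H834.HKT.hodgeConst aMark H864.TS.pull aForms aPos aHI aPM aKC H191.TS.sig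

theorem bFrame : FrameStmt := H594.HKT.frame

theorem bGenFam : GenFamStmt := H594.HKT.genFam bFin2 bHodge bFrame

theorem bPos : PosTStmt := H747.HKT.posTStmt aForms

theorem bRatio : RatioTStmt := H864.HKT.ratioT H89.HK.ht aForms formsT H864.TS.pull

theorem bBil : BilTStmt := H594.HKT.bilT

theorem bPer (hI : IndTStmt) : PerTStmt := H594.HKT.perT hI bPos bBil aForms

theorem bPull : PullTStmt := H191.HKT.pullT

theorem bTwo : TwoTStmt := H191.HKT.twoT

theorem bArith : ArithStmt := H191.HKT.arith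

theorem bThConst : ThConstStmt := H834.HKT.thConst bBas

theorem bThCmp : ThCmpStmt := H747.HKT.thCmpStmt H125.KH.c2 bBas

theorem bBad : BadTStmt := H22.HKT.bad_of bBas bFin2 bHodge bFrame TK.inputs

/-- T-HKT from the open blocks. -/
theorem thkt_plug (glob : GlobTStmt) (form : FormTStmt) (fib : FibTStmt) : THKTStmt :=
  thkt_of glob form fib bBad H303.UF.crit H383.Gen.compl H383.U.liftT H383.U.tameOK

end Vale.Agent.P281.H83.HKT
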