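import Vale.Agent.P281.H83.HKT.Plug
import Vale.Agent.P281.H399.HKT.Glob
import Vale.Agent.P281.H511.HKT.Fin
import Vale.Agent.P281.H834.HKT.HolP
import Vale.Agent.P281.H624.HKT.IndT

/-!
# P281, project T-HKT (helper594): the plug, from `FibTStmt`
-/

open Vale.Agent.P281 Vale.Agent.P281.H64 Vale.Agent.P281.H64.TK.TS Vale.Agent.P281.H83.HK

noncomputable section

namespace Vale.Agent.P281.H83.HKT

theorem bHolP : HolPTStmt := H834.HKT.holPT

theorem bForm (hI : IndTStmt) : FormTStmt :=
  H511.HKT.formT TK.inputs aForms formsT bPos bBil bPull bTwo bBas bThCmp (bPer hI)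

theorem bGlob (hI : IndTStmt) : GlobTStmt :=
  H399.HKT.glob_of TK.inputs
    { fo := aForms
      foT := formsT
      pos := bPos
      per := bPer hI
      bil := bBil
      ratio := bRatio
      pull := bPull
      arith := bArith
      gf := bGenFam
      holP := bHolP
      bas := bBas
      thc := bThConst
      thm := bThCmp
      mark := aMark
      kc := aKC }

theorem bInd : IndTStmt :=
  H624.HKT.indT H864.HK.wLin H747.HK.wVal aForms H864.HK.wStokes H89.HK.ht aHI bPos

/-- T-HKT from the last block. -/
theorem thkt_fib (hFib : FibTStmt) : THKTStmt :=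
  thkt_plug (bGlob bInd) (bForm bInd) hFib

end Vale.Agent.P281.H83.HKT
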